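import Vale.Agent.P022D.CA.BlkInf
import Vale.Agent.P022F.CA.BlkDefs

namespace Vale.Agent.P022F.CA
export Vale.Agent.P022D.CA (
  eqInf map_eqInf eqInf_det blkInf const_eqInf matInf const_zero)
end Vale.Agent.P022F.CA
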