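import Vale.Agent.P022D.CA.Dom
import Vale.Agent.P022F.CA.Dep

namespace Vale.Agent.P022F.CA
export Vale.Agent.P022D.CA (
  dom_list isPrime_of_depth hartshorne isPrime_of_sup)
end Vale.Agent.P022F.CA
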